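import Vale.Agent.P113D.Code
import Mathlib.Logic.Relation
import Mathlib.Order.Nat

/-!
P113, part (d): the rules simulate the machine.
-/

namespace Vale.Agent.P113D

open Vale.Agent.P113E

variable {n : ℕ} {halt : ℕ → Bool} {del : ℕ → ℕ → ℕ × ℕ × ℕ}

/-- The `i`-th tape symbol written in a word (odd digits are skipped). -/
def sym (u : List ℕ) (i : ℕ) : ℕ := ((u.filter fun x => x % 2 = 0).map fun x => x / 2).getD i 0

@[simp] theorem sym_nil (i : ℕ) : sym [] i = 0 := by simp [sym]

theorem sym_odd {x : ℕ} (hx : x % 2 = 1) (u : List ℕ) (i : ℕ) : sym (x :: u) i = sym u i := by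
  simp [sym, hx]

theorem sym_even_zero {x : ℕ} (hx : x % 2 = 0) (u : List ℕ) : sym (x :: u) 0 = x / 2 := by
  simp [sym, hx]

theorem sym_even_succ {x : ℕ} (hx : x % 2 = 0) (u : List ℕ) (i : ℕ) :
    sym (x :: u) (i + 1) = sym u i := by
  simp [sym, hx]

theorem sym_zero (i : ℕ) : sym [0] i = 0 := by
  cases i with
  | zero => rw [sym_even_zero rfl]
  | succ i => rw [sym_even_succ rfl, sym_nil]

theorem sym_map (w : List ℕ) (i : ℕ) : sym (w.map fun s => 2 * s) i = w.getD i 0 := by
  induction w generalizing i with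
  | nil => simp
  | cons s w ih =>
    have hs : 2 * s % 2 = 0 := by omega
    cases i with
    | zero => rw [List.map_cons, sym_even_zero hs]; simp
    | succ i => rw [List.map_cons, sym_even_succ hs, ih]; simp

/-- The point which codes the state `q`, the direction `d` and the stacks `L`, `R`. -/
def pt (n q d : ℕ) (L R : List ℕ) : ℚ × ℚ := (code n (q :: d :: L), code n R)

/-- The word `L` holds the tape from the cell `a` to the left, `R` from `a + 1` to the right. -/
def Zip (tape : ℤ → ℕ) (a : ℤ) (L R : List ℕ) : Prop :=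
  (∀ i : ℕ, tape (a - i) = sym L i) ∧ ∀ i : ℕ, tape (a + 1 + i) = sym R i

/-- The stacks `L`, `R` with the direction `d` represent the configuration `c`. -/
structure Sim (n : ℕ) (c : Cfg) (d : ℕ) (L R : List ℕ) : Prop where
  dir : d < 3
  state : c.1 < n
  digL : Dig n L
  digR : Dig n R
  stay : d = 2 → L.headD 0 % 2 = 0
  zip : Zip c.2.1 (c.2.2 - if d = 1 then 1 else 0) L R

theorem step_rule (hn : 0 < n) {t : ℕ × ℕ × ℕ} (ht : t ∈ idx n halt) {L R : List ℕ}
    (hL : Dig n L) (hR : Dig n R) :
    Step (rules n halt del)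
      (code n ((domW t.1 t.2.1 t.2.2).1 ++ L), code n ((domW t.1 t.2.1 t.2.2).2 ++ R))
      (code n ((imgW del t.1 t.2.1 t.2.2).1 ++ L), code n ((imgW del t.1 t.2.1 t.2.2).2 ++ R)) := by
  refine ⟨rule n del t, List.mem_map.2 ⟨t, ht, rfl⟩, ⟨inSeg hn _ hL, inSeg hn _ hR⟩, ?_⟩
  simp only [ruleMap, rule, rect, aff_code hn]

/-- The main step: the symbol `x / 2` is under the head, `L` and `R` hold the rest of the tape. -/
theorem sim_main (hB : Bounded n del) {c : Cfg} {d x : ℕ} {L R : List ℕ} (hq : c.1 < n)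
    (hd : d < 3) (hx : x < 2 * n) (he : x % 2 = 0) (hL : Dig n L) (hR : Dig n R)
    (h0 : c.2.1 c.2.2 = x / 2) (h1 : ∀ i : ℕ, c.2.1 (c.2.2 - 1 - i) = sym L i)
    (h2 : ∀ i : ℕ, c.2.1 (c.2.2 + 1 + i) = sym R i) :
    ∃ d' L' R', (code n ((imgW del c.1 d x).1 ++ L), code n ((imgW del c.1 d x).2 ++ R)) =
      pt n (stepC del c).1 d' L' R' ∧ Sim n (stepC del c) d' L' R' := by
  obtain ⟨q, tape, pos⟩ := c
  simp only at hq h0 h1 h2
  have h3 := hB.three
  have hs : x / 2 < n := by omega
  have b1 := hB.state q hq _ hs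
  have b2 := hB.symb q hq _ hs
  have b3 := hB.dir q hq _ hs
  have hne : ¬ x % 2 = 1 := by omega
  simp only [imgW, if_neg hne, stepC, h0]
  generalize del q (x / 2) = r at b1 b2 b3
  obtain ⟨q1, s1, d1⟩ := r
  simp only at b1 b2 b3 ⊢
  set w := [2 * s1, 2 * q + 1, 2 * d + 1, x + 1] with hw
  have dw : Dig n w := by
    simp only [hw, dig_cons, dig_nil, and_true]
    omega
  have w0 : ∀ u, sym (w ++ u) 0 = s1 := fun u => by
    simp only [hw, List.cons_append]
    rw [sym_even_zero (by omega)]
    omega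
  have w1 : ∀ u i, sym (w ++ u) (i + 1) = sym u i := fun u i => by
    simp only [hw, List.cons_append, List.nil_append]
    rw [sym_even_succ (by omega), sym_odd (by omega), sym_odd (by omega), sym_odd (by omega)]
  have zL : ∀ i : ℕ, Function.update tape pos s1 (pos - i) = sym (w ++ L) i := fun i => by
    cases i with
    | zero => simp [w0]
    | succ i =>
      rw [w1, ← h1, Function.update_of_ne (by push_cast; omega)]
      congr 1
      push_cast
      ring
  have zR : ∀ i : ℕ, Function.update tape pos s1 (pos + i) = sym (w ++ R) i := fun i => by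
    cases i with
    | zero => simp [w0]
    | succ i =>
      rw [w1, ← h2, Function.update_of_ne (by push_cast; omega)]
      congr 1
      push_cast
      ring
  have zL' : ∀ i : ℕ, Function.update tape pos s1 (pos - 1 - i) = sym L i := fun i => by
    rw [← h1, Function.update_of_ne (by omega)]
  have zR' : ∀ i : ℕ, Function.update tape pos s1 (pos + 1 + i) = sym R i := fun i => by
    rw [← h2, Function.update_of_ne (by omega)]
  by_cases hd0 : d1 = 0
  · subst hd0
    refine ⟨0, L, w ++ R, by simp [pushW, pt], b3, b1, hL, dig_append.2 ⟨dw, hR⟩, by simp, ?_⟩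
    refine ⟨fun i => ?_, fun i => ?_⟩
    · rw [← zL']
      simp only [mv]
      congr 1
      simp
      ring
    · rw [← zR]
      simp only [mv]
      congr 1
      simp
  · refine ⟨d1, w ++ L, R, by simp [pushW, pt, hd0], b3, b1, dig_append.2 ⟨dw, hL⟩, hR,
      fun _ => by simp [hw], ?_⟩
    have e : pos + mv d1 - (if d1 = 1 then 1 else 0) = pos := by
      simp only [mv, if_neg hd0]
      split_ifs <;> simp
    simp only [e]
    exact ⟨zL, zR'⟩

theorem reach_right (hB : Bounded n del) {c : Cfg} (hc : halt c.1 = false) :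
    ∀ (R L : List ℕ), Sim n c 1 L R → ∃ d' L' R',
      Relation.TransGen (Step (rules n halt del)) (pt n c.1 1 L R) (pt n (stepC del c).1 d' L' R') ∧
        Sim n (stepC del c) d' L' R' := by
  have h3 := hB.three
  have hn : 0 < n := by omega
  have main : ∀ (x : ℕ) (R L : List ℕ), x % 2 = 0 → Sim n c 1 L (x :: R) → ∃ d' L' R',
      Relation.TransGen (Step (rules n halt del)) (pt n c.1 1 L (x :: R))
        (pt n (stepC del c).1 d' L' R') ∧ Sim n (stepC del c) d' L' R' := by
    intro x R L he h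
    obtain ⟨hx, hR⟩ := dig_cons.1 h.digR
    have z1 := h.zip.1
    have z2 := h.zip.2
    simp only [if_true] at z1 z2
    obtain ⟨d', L', R', e, hs⟩ := sim_main hB h.state h.dir hx he h.digL hR
      (by have := z2 0; rw [sym_even_zero he] at this; simpa using this) z1
      (fun i => by
        have := z2 (i + 1)
        rw [sym_even_succ he] at this
        rw [← this]
        exact congrArg c.2.1 (by push_cast; ring))
    refine ⟨d', L', R', Relation.TransGen.single ?_, hs⟩
    rw [← e]
    simpa [domW, pt] using step_rule (del := del) hn (t := (c.1, 1, x))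
      (mem_idx.2 ⟨h.state, hc, h.dir, hx⟩) h.digL hR
  intro R
  induction R with
  | nil =>
    intro L h
    have h' : Sim n c 1 L [0] := ⟨h.dir, h.state, h.digL, by simp [hn], h.stay, h.zip.1,
      fun i => by rw [h.zip.2 i, sym_zero, sym_nil]⟩
    have e : pt n c.1 1 L [] = pt n c.1 1 L [0] := by simp [pt, code_cons]
    rw [e]
    exact main 0 [] L rfl h'
  | cons x R ih =>
    intro L h
    rcases Nat.mod_two_eq_zero_or_one x with he | ho
    · exact main x R L he h
    · obtain ⟨hx, hR⟩ := dig_cons.1 h.digR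
      have h' : Sim n c 1 (x :: L) R := ⟨h.dir, h.state, dig_cons.2 ⟨hx, h.digL⟩, hR, by simp,
        fun i => by rw [h.zip.1 i, sym_odd ho], fun i => by rw [h.zip.2 i, sym_odd ho]⟩
      obtain ⟨d', L', R', ht, hs⟩ := ih _ h'
      refine ⟨d', L', R', Relation.TransGen.head ?_ ht, hs⟩
      simpa [domW, imgW, pushW, ho, pt] using step_rule (del := del) hn (t := (c.1, 1, x))
        (mem_idx.2 ⟨h.state, hc, h.dir, hx⟩) h.digL hR

theorem reach_left (hB : Bounded n del) {c : Cfg} (hc : halt c.1 = false) {d : ℕ} (hd : d ≠ 1) :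
    ∀ (L R : List ℕ), Sim n c d L R → ∃ d' L' R',
      Relation.TransGen (Step (rules n halt del)) (pt n c.1 d L R) (pt n (stepC del c).1 d' L' R') ∧
        Sim n (stepC del c) d' L' R' := by
  have h3 := hB.three
  have hn : 0 < n := by omega
  have main : ∀ (x : ℕ) (L R : List ℕ), x % 2 = 0 → Sim n c d (x :: L) R → ∃ d' L' R',
      Relation.TransGen (Step (rules n halt del)) (pt n c.1 d (x :: L) R)
        (pt n (stepC del c).1 d' L' R') ∧ Sim n (stepC del c) d' L' R' := by
    intro x L R he h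
    obtain ⟨hx, hL⟩ := dig_cons.1 h.digL
    have z1 := h.zip.1
    have z2 := h.zip.2
    simp only [if_neg hd, sub_zero] at z1 z2
    obtain ⟨d', L', R', e, hs⟩ := sim_main hB h.state h.dir hx he hL h.digR
      (by have := z1 0; rw [sym_even_zero he] at this; simpa using this)
      (fun i => by
        have := z1 (i + 1)
        rw [sym_even_succ he] at this
        rw [← this]
        exact congrArg c.2.1 (by push_cast; ring)) z2
    refine ⟨d', L', R', Relation.TransGen.single ?_, hs⟩
    rw [← e]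
    simpa [domW, pt, hd] using step_rule (del := del) hn (t := (c.1, d, x))
      (mem_idx.2 ⟨h.state, hc, h.dir, hx⟩) hL h.digR
  intro L
  induction L with
  | nil =>
    intro R h
    have h' : Sim n c d [0] R := ⟨h.dir, h.state, by simp [hn], h.digR, by simp,
      fun i => by rw [h.zip.1 i, sym_zero, sym_nil], h.zip.2⟩
    have e : pt n c.1 d [] R = pt n c.1 d [0] R := by simp [pt, code_cons]
    rw [e]
    exact main 0 [] R rfl h'
  | cons x L ih =>
    intro R h
    rcases Nat.mod_two_eq_zero_or_one x with he | ho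
    · exact main x L R he h
    · obtain ⟨hx, hL⟩ := dig_cons.1 h.digL
      have hd0 : d = 0 := by
        have h1 := h.dir
        have h2 := h.stay
        simp only [List.headD_cons] at h2
        omega
      subst hd0
      have h' : Sim n c 0 L (x :: R) := ⟨h.dir, h.state, hL, dig_cons.2 ⟨hx, h.digR⟩, by simp,
        fun i => by rw [h.zip.1 i, sym_odd ho], fun i => by rw [h.zip.2 i, sym_odd ho]⟩
      obtain ⟨d', L', R', ht, hs⟩ := ih _ h'
      refine ⟨d', L', R', Relation.TransGen.head ?_ ht, hs⟩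
      simpa [domW, imgW, pushW, ho, pt] using step_rule (del := del) hn (t := (c.1, 0, x))
        (mem_idx.2 ⟨h.state, hc, h.dir, hx⟩) hL h.digR

theorem reach (hB : Bounded n del) {c : Cfg} (hc : halt c.1 = false) {d : ℕ} {L R : List ℕ}
    (h : Sim n c d L R) : ∃ d' L' R',
      Relation.TransGen (Step (rules n halt del)) (pt n c.1 d L R) (pt n (stepC del c).1 d' L' R') ∧
        Sim n (stepC del c) d' L' R' := by
  by_cases hd : d = 1
  · subst hd
    exact reach_right hB hc R L h
  · exact reach_left hB hc hd L R h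

theorem sim_init (hB : Bounded n del) {q0 : ℕ} (hq : q0 < n) {w : List ℕ} (hw : ∀ s ∈ w, s < n) :
    Sim n (initC q0 w) 1 [] (w.map fun s => 2 * s) := by
  refine ⟨by norm_num, hq, dig_nil, ?_, by simp, fun i => ?_, fun i => ?_⟩
  · intro x hx
    obtain ⟨s, hs, rfl⟩ := List.mem_map.1 hx
    have := hw s hs
    omega
  · simp only [initC, if_true, sym_nil]
    rw [if_neg (by omega)]
  · simp only [initC, if_true, sym_map]
    rw [if_pos (by omega)]
    congr 1
    omega

theorem exists_seq_of_reflTransGen {α : Type} {r : α → α → Prop} {a b : α}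
    (h : Relation.ReflTransGen r a b) :
    ∃ (N : ℕ) (p : ℕ → α), p 0 = a ∧ (∀ k < N, r (p k) (p (k + 1))) ∧ p N = b := by
  induction h with
  | refl => exact ⟨0, fun _ => a, rfl, fun k hk => absurd hk (Nat.not_lt_zero k), rfl⟩
  | @tail b c _ hbc ih =>
    obtain ⟨N, p, h0, h1, h2⟩ := ih
    refine ⟨N + 1, fun k => if k ≤ N then p k else c, by simp [h0], fun k hk => ?_, by simp⟩
    rcases Nat.lt_succ_iff_lt_or_eq.1 hk with hk | rfl
    · simp only [if_pos hk.le, if_pos (Nat.succ_le_of_lt hk)]
      exact h1 k hk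
    · simp only [le_refl, if_true, Nat.not_succ_le_self, if_false, h2]
      exact hbc

theorem exists_seq_of_inv {α : Type} {r : α → α → Prop} {I : α → Prop} {a : α} (ha : I a)
    (h : ∀ x, I x → ∃ y, r x y ∧ I y) : ∃ p : ℕ → α, p 0 = a ∧ ∀ k, r (p k) (p (k + 1)) := by
  choose f hf using h
  let g : {x // I x} → {x // I x} := fun x => ⟨f x.1 x.2, (hf x.1 x.2).2⟩
  refine ⟨fun k => (g^[k] ⟨a, ha⟩).1, rfl, fun k => ?_⟩
  simp only [Function.iterate_succ_apply']
  exact (hf _ _).1

theorem reach_run (hB : Bounded n del) {q0 : ℕ} (hq : q0 < n) {w : List ℕ} (hw : ∀ s ∈ w, s < n)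
    (k : ℕ) (hk : ∀ j < k, halt ((stepC del)^[j] (initC q0 w)).1 = false) :
    ∃ d L R, Relation.ReflTransGen (Step (rules n halt del)) (start n q0 w)
      (pt n ((stepC del)^[k] (initC q0 w)).1 d L R) ∧ Sim n ((stepC del)^[k] (initC q0 w)) d L R := by
  induction k with
  | zero => exact ⟨1, [], _, Relation.ReflTransGen.refl, sim_init hB hq hw⟩
  | succ k ih =>
    obtain ⟨d, L, R, h1, h2⟩ := ih fun j hj => hk j (Nat.lt_succ_of_lt hj)
    obtain ⟨d', L', R', h3, h4⟩ := reach hB (hk k (Nat.lt_succ_self k)) h2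
    rw [Function.iterate_succ_apply']
    exact ⟨d', L', R', h1.trans h3.to_reflTransGen, h4⟩

/-- If the machine does not halt, the starting point has an infinite orbit. -/
theorem orbit_of_not_halts (hB : Bounded n del) {q0 : ℕ} (hq : q0 < n) {w : List ℕ}
    (hw : ∀ s ∈ w, s < n) (h : ¬ HaltsC halt del q0 w) :
    ∃ p : ℕ → ℚ × ℚ, p 0 = start n q0 w ∧ ∀ k, Step (rules n halt del) (p k) (p (k + 1)) := by
  have hk : ∀ k, halt ((stepC del)^[k] (initC q0 w)).1 = false := fun k => by
    by_contra hc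
    exact h ⟨k, by simpa using hc⟩
  refine exists_seq_of_inv (I := fun p => ∃ k d L R,
    Relation.ReflTransGen (Step (rules n halt del)) p
      (pt n ((stepC del)^[k] (initC q0 w)).1 d L R) ∧
      Sim n ((stepC del)^[k] (initC q0 w)) d L R) ?_ ?_
  · exact ⟨0, reach_run hB hq hw 0 fun j _ => hk j⟩
  · rintro p ⟨k, d, L, R, h1, h2⟩
    obtain ⟨d', L', R', h3, h4⟩ := reach hB (hk k) h2
    obtain ⟨y, h5, h6⟩ := Relation.TransGen.head'_iff.1 (Relation.TransGen.trans_right h1 h3)
    refine ⟨y, h5, k + 1, d', L', R', ?_, ?_⟩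
    · rwa [Function.iterate_succ_apply']
    · rwa [Function.iterate_succ_apply']

/-- If the machine halts, the starting point has a finite orbit which ends in a halting
rectangle. -/
theorem orbit_of_halts (hB : Bounded n del) {q0 : ℕ} (hq : q0 < n) {w : List ℕ}
    (hw : ∀ s ∈ w, s < n) (h : HaltsC halt del q0 w) :
    ∃ (N : ℕ) (p : ℕ → ℚ × ℚ), p 0 = start n q0 w ∧
      (∀ k < N, Step (rules n halt del) (p k) (p (k + 1))) ∧ Halted (halts n halt) (p N) := by
  classical
  have h3 := hB.three
  have hn : 0 < n := by omega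
  obtain ⟨d, L, R, h1, h2⟩ := reach_run (halt := halt) hB hq hw (Nat.find h) fun j hj => by
    simpa using Nat.find_min h hj
  obtain ⟨N, p, h0, hs, hN⟩ := exists_seq_of_reflTransGen h1
  refine ⟨N, p, h0, hs, ?_⟩
  rw [hN]
  refine ⟨_, List.mem_map.2 ⟨_, List.mem_filter.2 ⟨List.mem_range.2 h2.state, Nat.find_spec h⟩,
    rfl⟩, ?_, ?_⟩
  · have hd := h2.dir
    exact inSeg hn [_] (w := d :: L) (dig_cons.2 ⟨by omega, h2.digL⟩)
  · exact inSeg hn [] h2.digR

/-- The starting point lies in `[0, 1/8]²`. -/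
theorem start_mem (h3 : 3 ≤ n) {q0 : ℕ} (hq : q0 < n) {w : List ℕ} (hw : ∀ s ∈ w, s < n) :
    (0 ≤ (start n q0 w).1 ∧ (start n q0 w).1 ≤ 1 / 8) ∧
      0 ≤ (start n q0 w).2 ∧ (start n q0 w).2 ≤ 1 / 8 := by
  have hn : 0 < n := by omega
  refine ⟨⟨code_nonneg _, code_le hn ?_⟩, code_nonneg _, code_le hn ?_⟩
  · simp only [dig_cons, dig_nil, and_true]
    omega
  · intro x hx
    obtain ⟨s, hs, rfl⟩ := List.mem_map.1 hx
    have := hw s hs
    omega

end Vale.Agent.P113D
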