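import Vale.Agent.P113E.Iface
import Mathlib.Logic.Function.Iterate
import Mathlib.Data.List.GetD

/-!
P113, part (d): a generic one-tape machine on natural numbers, and the finite list of affine
rules between rectangles which simulates it injectively on two stacks.
-/

namespace Vale.Agent.P113D

open Vale.Agent.P113E

/-- A configuration: state, tape, position of the head. -/
abbrev Cfg : Type := ℕ × (ℤ → ℕ) × ℤ

/-- The move of the head: `0` is left, `1` is right, anything else is no move. -/
def mv (d : ℕ) : ℤ := if d = 0 then -1 else if d = 1 then 1 else 0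

/-- One step of the machine with the table `del` (new state, written symbol, direction). -/
def stepC (del : ℕ → ℕ → ℕ × ℕ × ℕ) (c : Cfg) : Cfg :=
  ((del c.1 (c.2.1 c.2.2)).1, Function.update c.2.1 c.2.2 (del c.1 (c.2.1 c.2.2)).2.1,
    c.2.2 + mv (del c.1 (c.2.1 c.2.2)).2.2)

/-- The initial configuration: the word `w` on the cells `0, 1, …`, blank `0` elsewhere. -/
def initC (q0 : ℕ) (w : List ℕ) : Cfg :=
  (q0, fun i => if 0 ≤ i then w.getD i.toNat 0 else 0, 0)

/-- The machine reaches a halting state. -/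
def HaltsC (halt : ℕ → Bool) (del : ℕ → ℕ → ℕ × ℕ × ℕ) (q0 : ℕ) (w : List ℕ) : Prop :=
  ∃ k : ℕ, halt ((stepC del)^[k] (initC q0 w)).1 = true

/-- All states and symbols are below `n`. -/
structure Bounded (n : ℕ) (del : ℕ → ℕ → ℕ × ℕ × ℕ) : Prop where
  three : 3 ≤ n
  state : ∀ q < n, ∀ s < n, (del q s).1 < n
  symb : ∀ q < n, ∀ s < n, (del q s).2.1 < n
  dir : ∀ q < n, ∀ s < n, (del q s).2.2 < 3

/-- The number `∑ u_k B^(-(k+1))`, `B = 16 n`. -/
def code (n : ℕ) (u : List ℕ) : ℚ := u.foldr (fun (x : ℕ) (a : ℚ) => ((x : ℚ) + a) / (16 * n)) 0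

/-- The segment of all codes of words which begin with `u`. -/
def seg (n : ℕ) (u : List ℕ) : Seg := (code n u, 1 / (8 * (16 * n) ^ u.length))

/-- The rectangle of a pair of words. -/
def rect (n : ℕ) (u : List ℕ × List ℕ) : Rect := (seg n u.1, seg n u.2)

/-- The words which are read by the rule `(q, d, x)`. -/
def domW (q d x : ℕ) : List ℕ × List ℕ := if d = 1 then ([q, d], [x]) else ([q, d, x], [])

/-- State `q`, direction `d`, and the word `w` put behind the head. -/
def pushW (q d : ℕ) (w : List ℕ) : List ℕ × List ℕ :=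
  if d = 0 then ([q, d], w) else (q :: d :: w, [])

/-- The words which are written by the rule `(q, d, x)`. -/
def imgW (del : ℕ → ℕ → ℕ × ℕ × ℕ) (q d x : ℕ) : List ℕ × List ℕ :=
  if x % 2 = 1 then pushW q d [x]
  else pushW (del q (x / 2)).1 (del q (x / 2)).2.2
    [2 * (del q (x / 2)).2.1, 2 * q + 1, 2 * d + 1, x + 1]

/-- The rule `(q, d, x)`. -/
def rule (n : ℕ) (del : ℕ → ℕ → ℕ × ℕ × ℕ) (t : ℕ × ℕ × ℕ) : Rule :=
  (rect n (domW t.1 t.2.1 t.2.2), rect n (imgW del t.1 t.2.1 t.2.2), seg n [t.1, t.2.1, t.2.2])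

/-- The indices of the rules. -/
def idx (n : ℕ) (halt : ℕ → Bool) : List (ℕ × ℕ × ℕ) :=
  ((List.range n).filter fun q => !halt q).flatMap fun q =>
    (List.range 3).flatMap fun d => (List.range (2 * n)).map fun x => (q, d, x)

/-- The rules. -/
def rules (n : ℕ) (halt : ℕ → Bool) (del : ℕ → ℕ → ℕ × ℕ × ℕ) : List Rule :=
  (idx n halt).map (rule n del)

/-- The halting rectangles. -/
def halts (n : ℕ) (halt : ℕ → Bool) : List Rect :=
  ((List.range n).filter halt).map fun q => rect n ([q], [])

/-- The starting point. -/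
def start (n q0 : ℕ) (w : List ℕ) : ℚ × ℚ := (code n [q0, 1], code n (w.map fun s => 2 * s))

end Vale.Agent.P113D
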