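import Vale.Agent.P113.Iface
import Vale.Agent.P113M.Tm0
import Vale.Agent.P113D.Sim

/-!
P113, block D2: a finite machine is simulated by an injective system of affine rules.
-/

namespace Vale.Agent.P113D

open Vale.Agent.P113E

theorem code_eq_iface (n : ℕ) (l : List ℕ) : Vale.Agent.P113.code (16 * n) l = code n l := by
  induction l with
  | nil => simp [Vale.Agent.P113.code]
  | cons a l ih =>
    rw [code_cons, ← ih]
    simp [Vale.Agent.P113.code]

theorem shiftStmt : Vale.Agent.P113.ShiftStmt := by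
  intro Γ Λ _ _ _ _ N
  classical
  have := Fintype.ofFinite Λ
  obtain ⟨n, del, q0, e, hB, hq, he, h⟩ := Vale.Agent.P113M.exists_table N Finset.univ
    ⟨by simp, fun _ _ => by simp⟩
  refine ⟨rules n (fun q => decide (q = 0)) del, halts n fun q => decide (q = 0), code n [q0, 1],
    16 * n, fun a => 2 * e a, good hB, fun l => ?_⟩
  have hw : ∀ s ∈ l.map e, s < n := fun s hs => by
    obtain ⟨a, -, rfl⟩ := List.mem_map.1 hs
    exact he a
  have hs : start n q0 (l.map e) =
      (code n [q0, 1], Vale.Agent.P113.code (16 * n) (l.map fun a => 2 * e a)) := by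
    rw [code_eq_iface, start, List.map_map]
    rfl
  by_cases hl : (Turing.TM0.eval N l).Dom
  · obtain ⟨K, p, h0, h1, h2⟩ := orbit_of_halts hB hq hw ((h l).2 hl)
    exact ⟨p, h0.trans hs, fun hn => absurd hl hn, fun _ => ⟨K, h1, h2⟩⟩
  · obtain ⟨p, h0, h1⟩ := orbit_of_not_halts hB hq hw fun hh => hl ((h l).1 hh)
    exact ⟨p, h0.trans hs, fun _ => h1, fun hn => absurd hn hl⟩

end Vale.Agent.P113D
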