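import Vale.Agent.P113D.Defs
import Mathlib.Tactic.Positivity
import Mathlib.Tactic.FieldSimp
import Mathlib.Tactic.Linarith
import Mathlib.Tactic.Ring
import Mathlib.Tactic.NormNum
import Mathlib.Data.List.ProdSigma
import Mathlib.Data.List.Range

/-!
P113, part (d): arithmetic of the codes of words, and the separation properties of the rules.
-/

namespace Vale.Agent.P113D

open Vale.Agent.P113E

/-- All digits are below `2 n`. -/
def Dig (n : ℕ) (u : List ℕ) : Prop := ∀ x ∈ u, x < 2 * n

/-- The two words differ at some common place. -/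
def Diff : List ℕ → List ℕ → Prop
  | x :: a, y :: b => x ≠ y ∨ Diff a b
  | _, _ => False

variable {n : ℕ}

@[simp] theorem dig_nil : Dig n [] := by simp [Dig]

@[simp] theorem dig_cons {x : ℕ} {u : List ℕ} : Dig n (x :: u) ↔ x < 2 * n ∧ Dig n u := by
  simp [Dig]

@[simp] theorem dig_append {u v : List ℕ} : Dig n (u ++ v) ↔ Dig n u ∧ Dig n v := by
  simp [Dig, or_imp, forall_and]

@[simp] theorem diff_cons {x y : ℕ} {a b : List ℕ} :
    Diff (x :: a) (y :: b) ↔ x ≠ y ∨ Diff a b := Iff.rfl

@[simp] theorem diff_nil_left {b : List ℕ} : ¬ Diff [] b := by cases b <;> simp [Diff]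

@[simp] theorem diff_nil_right {a : List ℕ} : ¬ Diff a [] := by cases a <;> simp [Diff]

theorem Diff.symm : ∀ {a b : List ℕ}, Diff a b → Diff b a
  | _ :: _, _ :: _, h => h.imp Ne.symm Diff.symm
  | [], _, h => (diff_nil_left h).elim
  | _ :: _, [], h => (diff_nil_right h).elim

@[simp] theorem code_nil : code n [] = 0 := rfl

theorem code_cons (x : ℕ) (u : List ℕ) : code n (x :: u) = ((x : ℚ) + code n u) / (16 * n) := rfl

theorem code_nonneg (u : List ℕ) : 0 ≤ code n u := by
  induction u with
  | nil => simp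
  | cons x u ih => rw [code_cons]; positivity

theorem code_append (hn : 0 < n) (u w : List ℕ) :
    code n (u ++ w) = code n u + code n w / (16 * n) ^ u.length := by
  have h : (0 : ℚ) < n := by exact_mod_cast hn
  induction u with
  | nil => simp
  | cons x u ih =>
    rw [List.cons_append, code_cons, code_cons, ih, List.length_cons, pow_succ]
    field_simp
    ring

theorem seg_cons (hn : 0 < n) (x : ℕ) (u : List ℕ) :
    seg n (x :: u) = (((x : ℚ) + (seg n u).1) / (16 * n), (seg n u).2 / (16 * n)) := by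
  have h : (0 : ℚ) < n := by exact_mod_cast hn
  simp only [seg, code_cons, List.length_cons, pow_succ]
  congr 1
  field_simp

theorem segOk (hn : 0 < n) {u : List ℕ} (hu : Dig n u) : SegOk (seg n u) := by
  have h : (0 : ℚ) < n := by exact_mod_cast hn
  induction u with
  | nil => simp [SegOk, seg]
  | cons x u ih =>
    obtain ⟨hx, hu⟩ := dig_cons.1 hu
    obtain ⟨h1, h2, h3⟩ := ih hu
    have hx' : (x : ℚ) + 1 ≤ 2 * n := by exact_mod_cast hx
    rw [seg_cons hn]
    refine ⟨by positivity, by positivity, ?_⟩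
    simp only
    rw [← add_div, div_le_iff₀ (by positivity)]
    linarith

theorem code_le (hn : 0 < n) {u : List ℕ} (hu : Dig n u) : code n u ≤ 1 / 8 := by
  obtain ⟨-, h2, h3⟩ := segOk hn hu
  have : (seg n u).1 = code n u := rfl
  linarith

theorem inSeg (hn : 0 < n) (u : List ℕ) {w : List ℕ} (hw : Dig n w) :
    InSeg (seg n u) (code n (u ++ w)) := by
  have h : (0 : ℚ) < n := by exact_mod_cast hn
  have h1 := code_nonneg (n := n) w
  have h2 := code_le hn hw
  rw [code_append hn]
  constructor
  · simp only [seg]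
    have : 0 ≤ code n w / (16 * n) ^ u.length := by positivity
    linarith
  · simp only [seg]
    have : code n w / (16 * n) ^ u.length ≤ 1 / (8 * (16 * n) ^ u.length) := by
      rw [← div_div]
      gcongr
    linarith

theorem aff_code (hn : 0 < n) (u u' w : List ℕ) :
    aff (seg n u) (seg n u') (code n (u ++ w)) = code n (u' ++ w) := by
  have h : (0 : ℚ) < n := by exact_mod_cast hn
  rw [code_append hn, code_append hn]
  simp only [aff, seg]
  field_simp
  ring

theorem segSep (hn : 0 < n) : ∀ {u v : List ℕ}, Dig n u → Dig n v → Diff u v →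
    SegSep (seg n u) (seg n v)
  | [], _, _, _, h => (diff_nil_left h).elim
  | _ :: _, [], _, _, h => (diff_nil_right h).elim
  | x :: a, y :: b, hu, hv, h => by
    have h0 : (0 : ℚ) < 16 * n := by
      have : (0 : ℚ) < n := by exact_mod_cast hn
      positivity
    obtain ⟨-, ha⟩ := dig_cons.1 hu
    obtain ⟨-, hb⟩ := dig_cons.1 hv
    obtain ⟨a1, a2, a3⟩ := segOk hn ha
    obtain ⟨b1, b2, b3⟩ := segOk hn hb
    rw [seg_cons hn, seg_cons hn]
    have key : (x : ℚ) + (seg n a).1 + (seg n a).2 ≤ (y + (seg n b).1) - (seg n b).2 ∨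
        (y : ℚ) + (seg n b).1 + 2 * (seg n b).2 ≤ x + (seg n a).1 := by
      rcases lt_trichotomy x y with hxy | hxy | hxy
      · left
        have : (x : ℚ) + 1 ≤ y := by exact_mod_cast hxy
        linarith
      · subst hxy
        have h' : Diff a b := by simpa using h
        rcases segSep hn ha hb h' with h1 | h1
        · left; linarith
        · right; linarith
      · right
        have : (y : ℚ) + 1 ≤ x := by exact_mod_cast hxy
        linarith
    rcases key with h1 | h1
    · left
      simp only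
      rw [← add_div, ← sub_div]
      exact div_le_div_of_nonneg_right h1 h0.le
    · right
      simp only
      rw [← mul_div_assoc, ← add_div]
      exact div_le_div_of_nonneg_right h1 h0.le

/-- Digits of a pair of words. -/
def Dig2 (n : ℕ) (u : List ℕ × List ℕ) : Prop := Dig n u.1 ∧ Dig n u.2

/-- Two pairs of words differ at some common place of one of the coordinates. -/
def Diff2 (u v : List ℕ × List ℕ) : Prop := Diff u.1 v.1 ∨ Diff u.2 v.2

theorem rectOk (hn : 0 < n) {u : List ℕ × List ℕ} (hu : Dig2 n u) : RectOk (rect n u) :=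
  ⟨segOk hn hu.1, segOk hn hu.2⟩

theorem rectSep (hn : 0 < n) {u v : List ℕ × List ℕ} (hu : Dig2 n u) (hv : Dig2 n v)
    (h : Diff2 u v) : RectSep (rect n u) (rect n v) ∧ RectSep (rect n v) (rect n u) :=
  ⟨h.imp (segSep hn hu.1 hv.1) (segSep hn hu.2 hv.2),
    h.imp (fun h => segSep hn hv.1 hu.1 h.symm) (fun h => segSep hn hv.2 hu.2 h.symm)⟩

variable {halt : ℕ → Bool} {del : ℕ → ℕ → ℕ × ℕ × ℕ}

theorem mem_idx {t : ℕ × ℕ × ℕ} :
    t ∈ idx n halt ↔ t.1 < n ∧ halt t.1 = false ∧ t.2.1 < 3 ∧ t.2.2 < 2 * n := by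
  obtain ⟨q, d, x⟩ := t
  simp only [idx, List.mem_flatMap, List.mem_filter, List.mem_range, List.mem_map,
    Prod.mk.injEq, Bool.not_eq_eq_eq_not, Bool.not_true]
  constructor
  · rintro ⟨q', ⟨h1, h2⟩, d', h3, x', h4, rfl, rfl, rfl⟩
    exact ⟨h1, h2, h3, h4⟩
  · rintro ⟨h1, h2, h3, h4⟩
    exact ⟨q, ⟨h1, h2⟩, d, h3, x, h4, rfl, rfl, rfl⟩

theorem nodup_idx : (idx n halt).Nodup := by
  have h : idx n halt = ((List.range n).filter fun q => !halt q) ×ˢ
      (List.range 3 ×ˢ List.range (2 * n)) := by
    simp only [idx, SProd.sprod, List.product, List.map_flatMap, List.map_map]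
    rfl
  rw [h]
  exact (List.nodup_range.filter _).product (List.nodup_range.product List.nodup_range)

theorem dig_domW (h3 : 3 ≤ n) {q d x : ℕ} (hq : q < n) (hd : d < 3) (hx : x < 2 * n) :
    Dig2 n (domW q d x) := by
  unfold domW Dig2
  split_ifs <;> simp <;> omega

theorem dig_pushW (h3 : 3 ≤ n) {q d : ℕ} {w : List ℕ} (hq : q < n) (hd : d < 3) (hw : Dig n w) :
    Dig2 n (pushW q d w) := by
  unfold pushW Dig2
  split_ifs <;> simp [hw] <;> omega

theorem dig_imgW (hB : Bounded n del) {q d x : ℕ} (hq : q < n) (hd : d < 3) (hx : x < 2 * n) :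
    Dig2 n (imgW del q d x) := by
  have h3 := hB.three
  unfold imgW
  split_ifs with h
  · exact dig_pushW h3 hq hd (by simpa using hx)
  · have hs : x / 2 < n := by omega
    have h1 := hB.symb q hq _ hs
    refine dig_pushW h3 (hB.state q hq _ hs) (hB.dir q hq _ hs) ?_
    simp only [dig_cons, dig_nil, and_true]
    omega

theorem diff_domW {q d x q' d' x' : ℕ} (h : (q, d, x) ≠ (q', d', x')) :
    Diff2 (domW q d x) (domW q' d' x') := by
  have h' : q ≠ q' ∨ d ≠ d' ∨ x ≠ x' := by
    by_contra hc
    push Not at hc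
    exact h (by rw [hc.1, hc.2.1, hc.2.2])
  unfold domW Diff2
  split_ifs <;> simp <;> omega

theorem diff_pushW {q d q' d' : ℕ} {w w' : List ℕ} (h : q = q' → d = d' → Diff w w') :
    Diff2 (pushW q d w) (pushW q' d' w') := by
  unfold pushW Diff2
  by_cases hq : q = q'
  · by_cases hd : d = d'
    · subst hq hd
      split_ifs <;> simp [h rfl rfl]
    · split_ifs <;> simp [hd]
  · split_ifs <;> simp [hq]

theorem diff_imgW {q d x q' d' x' : ℕ} (h : (q, d, x) ≠ (q', d', x')) :
    Diff2 (imgW del q d x) (imgW del q' d' x') := by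
  have h' : q ≠ q' ∨ d ≠ d' ∨ x ≠ x' := by
    by_contra hc
    push Not at hc
    exact h (by rw [hc.1, hc.2.1, hc.2.2])
  unfold imgW
  split_ifs <;> refine diff_pushW fun h1 h2 => ?_ <;> simp only [diff_cons, diff_nil_left] <;> omega

/-- The rules and the halting rectangles are separated. -/
theorem good (hB : Bounded n del) : Good (rules n halt del) (halts n halt) := by
  have h3 := hB.three
  have hn : 0 < n := by omega
  have hd : ∀ t ∈ idx n halt, Dig2 n (domW t.1 t.2.1 t.2.2) := fun t ht =>
    dig_domW h3 (mem_idx.1 ht).1 (mem_idx.1 ht).2.2.1 (mem_idx.1 ht).2.2.2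
  have hi : ∀ t ∈ idx n halt, Dig2 n (imgW del t.1 t.2.1 t.2.2) := fun t ht =>
    dig_imgW hB (mem_idx.1 ht).1 (mem_idx.1 ht).2.2.1 (mem_idx.1 ht).2.2.2
  have hh : ∀ t ∈ idx n halt, Dig n [t.1, t.2.1, t.2.2] := fun t ht => by
    obtain ⟨h1, -, h2, h4⟩ := mem_idx.1 ht
    simp only [dig_cons, dig_nil, and_true]
    omega
  have hq : ∀ q ∈ (List.range n).filter halt, Dig2 n ([q], []) := fun q hq => by
    have : q < n := List.mem_range.1 (List.mem_filter.1 hq).1
    simp only [Dig2, dig_cons, dig_nil, and_true]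
    omega
  constructor
  · intro r hr
    obtain ⟨t, ht, rfl⟩ := List.mem_map.1 hr
    exact rectOk hn (hd t ht)
  · intro r hr
    obtain ⟨t, ht, rfl⟩ := List.mem_map.1 hr
    exact rectOk hn (hi t ht)
  · intro r hr
    obtain ⟨t, ht, rfl⟩ := List.mem_map.1 hr
    exact segOk hn (hh t ht)
  · intro r hr
    obtain ⟨t, ht, rfl⟩ := List.mem_map.1 hr
    exact rectOk hn (hq t ht)
  · rw [rules, List.pairwise_map]
    exact nodup_idx.pairwise_of_forall_ne fun t ht t' ht' hne =>
      rectSep hn (hd t ht) (hd t' ht') (diff_domW hne)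
  · rw [halts, List.pairwise_map]
    exact (List.nodup_range.filter _).pairwise_of_forall_ne fun t ht t' ht' hne =>
      rectSep hn (hq t ht) (hq t' ht') (Or.inl (Or.inl hne))
  · intro r hr h hh
    obtain ⟨t, ht, rfl⟩ := List.mem_map.1 hr
    obtain ⟨q, hq', rfl⟩ := List.mem_map.1 hh
    refine rectSep hn (hd t ht) (hq q hq') (Or.inl ?_)
    have hne : t.1 ≠ q := by
      intro h
      have h1 := (mem_idx.1 ht).2.1
      rw [h, (List.mem_filter.1 hq').2] at h1
      exact Bool.noConfusion h1
    unfold domW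
    split_ifs <;> simp [hne]
  · rw [rules, List.pairwise_map]
    exact nodup_idx.pairwise_of_forall_ne fun t ht t' ht' hne =>
      rectSep hn (hi t ht) (hi t' ht') (diff_imgW hne)
  · rw [rules, List.pairwise_map]
    refine nodup_idx.pairwise_of_forall_ne fun t ht t' ht' hne => ?_
    have hdf : Diff [t.1, t.2.1, t.2.2] [t'.1, t'.2.1, t'.2.2] := by
      by_contra hc
      simp only [diff_cons, diff_nil_left, or_false, not_or, not_not] at hc
      exact hne (Prod.ext hc.1 (Prod.ext hc.2.1 hc.2.2))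
    exact ⟨segSep hn (hh t ht) (hh t' ht') hdf, segSep hn (hh t' ht') (hh t ht) hdf.symm⟩

end Vale.Agent.P113D
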